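import Mathlib

/-!
# P304: randomized k-server, definitions

Histories are lists with the LATEST request first.
-/

namespace Vale.Agent.P304

open MeasureTheory
open scoped ENNReal NNReal

/-- `d` is a metric on `X`. -/
structure IsMetric {X : Type} (d : X → X → ℝ) : Prop where
  zero_iff : ∀ x y, d x y = 0 ↔ x = y
  symm : ∀ x y, d x y = d y x
  tri : ∀ x y z, d x z ≤ d x y + d y z

/-- Positions of the `k` servers after the history `h` (latest request first) under the
deterministic policy `a`, which maps a nonempty history to the server sent to the latest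
request; `s` are the initial positions. -/
def conf {X : Type} {k : ℕ} (a : List X → Fin k) (s : Fin k → X) : List X → Fin k → X
  | [] => s
  | r :: h => Function.update (conf a s h) (a (r :: h)) r

/-- Total distance moved by the policy `a` during the history. -/
def cost {X : Type} {k : ℕ} (d : X → X → ℝ) (a : List X → Fin k) (s : Fin k → X) : List X → ℝ
  | [] => 0
  | r :: h => cost d a s h + d (conf a s h (a (r :: h))) r

/-- The least total movement of a service of the request sequence `σ` known in advance. -/
noncomputable def opt {X : Type} {k : ℕ} (d : X → X → ℝ) (s : Fin k → X) (σ : List X) : ℝ :=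
  ⨅ a : List X → Fin k, cost d a s σ

/-- Some randomized policy (a random deterministic policy `A ω`) is `c`-competitive against the
oblivious adversary, with an additive constant `B` independent of `σ`. -/
def Competitive {X : Type} {k : ℕ} (d : X → X → ℝ) (s : Fin k → X) (c : ℝ) : Prop :=
  ∃ (Ω : Type) (_ : MeasurableSpace Ω) (P : Measure Ω) (_ : IsProbabilityMeasure P)
    (A : Ω → List X → Fin k), (∀ h, Measurable fun ω => A ω h) ∧
    ∃ B : ℝ, ∀ σ : List X, ∫ ω, cost d (A ω) s σ ∂P ≤ c * opt d s σ + B

/-- The randomized ratio of `(X, d, s)`. -/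
noncomputable def rho {X : Type} {k : ℕ} (d : X → X → ℝ) (s : Fin k → X) : ℝ≥0∞ :=
  ⨅ (c : ℝ≥0) (_ : Competitive d s c), (c : ℝ≥0∞)

/-- `R k`: supremum of the ratios over all metric spaces with at least `k + 1` points and all
initial positions. -/
noncomputable def R (k : ℕ) : ℝ≥0∞ :=
  ⨆ (X : Type) (d : X → X → ℝ) (_ : IsMetric d) (_ : Nonempty (Fin (k + 1) ↪ X))
    (s : Fin k → X), rho d s

/-- `Rb k`: the same supremum over bounded metric spaces only. -/
noncomputable def Rb (k : ℕ) : ℝ≥0∞ :=
  ⨆ (X : Type) (d : X → X → ℝ) (_ : IsMetric d) (_ : ∃ D, ∀ x y, d x y ≤ D)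
    (_ : Nonempty (Fin (k + 1) ↪ X)) (s : Fin k → X), rho d s

end Vale.Agent.P304
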