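import Vale.Agent.P304.Sim

/-!
# P304: monotonicity in the number of servers
-/

namespace Vale.Agent.P304

open MeasureTheory Equiv
open scoped ENNReal NNReal

variable {X : Type} {n k : ℕ}

theorem cost_nonneg {d : X → X → ℝ} (hd : IsMetric d) (a : List X → Fin k) (s : Fin k → X)
    (h : List X) : 0 ≤ cost d a s h := by
  induction h with
  | nil => exact le_refl _
  | cons r h ih => exact add_nonneg ih (hd.nonneg _ _)

theorem opt_le {d : X → X → ℝ} (hd : IsMetric d) (a : List X → Fin k) (s : Fin k → X)
    (h : List X) : opt d s h ≤ cost d a s h :=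
  ciInf_le ⟨0, by rintro _ ⟨b, rfl⟩; exact cost_nonneg hd b s h⟩ a

theorem conf_dep (d : X → X → ℝ) (a b : List X → Fin k) (s : Fin k → X) (τ : List X)
    (h : ∀ t ∈ τ.tails, a t = b t) : conf a s τ = conf b s τ ∧ cost d a s τ = cost d b s τ := by
  induction τ with
  | nil => exact ⟨rfl, rfl⟩
  | cons r τ ih =>
    have h1 : a (r :: τ) = b (r :: τ) := h _ (by simp)
    have ⟨h2, h3⟩ := ih fun t ht => h t (by
      rw [List.tails_cons]
      exact List.mem_cons_of_mem _ ht)
    simp only [conf, cost]
    rw [h1, h2, h3]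
    exact ⟨rfl, rfl⟩

theorem em_dep (a b : List (Option X) → Fin (n + 2)) (τ : List X)
    (h : ∀ t ∈ (inter τ).tails, a t = b t) : em a τ = em b τ := by
  induction τ with
  | nil => rfl
  | cons r τ ih =>
    have h1 : a (none :: some r :: inter τ) = b (none :: some r :: inter τ) :=
      h _ (by simp [inter])
    have h2 : a (some r :: inter τ) = b (some r :: inter τ) := h _ (by simp [inter])
    have h3 := ih fun t ht => h t (by
      simp only [inter, List.tails_cons]
      exact List.mem_cons_of_mem _ (List.mem_cons_of_mem _ ht))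
    simp only [em]
    rw [h1, h2, h3]

theorem sim_dep (a b : List (Option X) → Fin (n + 2)) (τ : List X)
    (h : ∀ t ∈ (inter τ).tails, a t = b t) : sim a τ = sim b τ := by
  cases τ with
  | nil => rfl
  | cons r τ =>
    have h1 : a (none :: some r :: inter τ) = b (none :: some r :: inter τ) :=
      h _ (by simp [inter])
    have h2 : a (some r :: inter τ) = b (some r :: inter τ) := h _ (by simp [inter])
    have h3 := em_dep a b τ fun t ht => h t (by
      simp only [inter, List.tails_cons]
      exact List.mem_cons_of_mem _ (List.mem_cons_of_mem _ ht))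
    simp only [sim]
    rw [h1, h2, h3]

/-- A function of the policy which depends on finitely many of its values only is measurable. -/
theorem meas_dep {Y β Ω : Type} [MeasurableSpace Ω] [MeasurableSpace β] {m : ℕ}
    (A : Ω → List Y → Fin (m + 1)) (hA : ∀ h, Measurable fun ω => A ω h)
    (F : (List Y → Fin (m + 1)) → β) (L : List (List Y))
    (hF : ∀ a b, (∀ t ∈ L, a t = b t) → F a = F b) :
    Measurable (fun ω => F (A ω)) ∧ (Set.range fun ω => F (A ω)).Finite := by
  classical
  let G : ({t // t ∈ L.toFinset} → Fin (m + 1)) → β :=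
    fun u => F fun t => if ht : t ∈ L.toFinset then u ⟨t, ht⟩ else 0
  have hG : ∀ ω, F (A ω) = G fun t => A ω t.1 := by
    intro ω
    refine hF _ _ fun t ht => ?_
    have h1 : t ∈ L.toFinset := List.mem_toFinset.2 ht
    simp [h1]
  have h2 : Measurable fun ω => (fun t : {t // t ∈ L.toFinset} => A ω t.1) :=
    measurable_pi_lambda _ fun t => hA t.1
  constructor
  · have h3 : (fun ω => F (A ω)) = G ∘ fun ω => (fun t : {t // t ∈ L.toFinset} => A ω t.1) :=
      funext hG
    rw [h3]
    exact (Measurable.of_discrete (f := G)).comp h2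
  · refine (Set.finite_range G).subset ?_
    rintro _ ⟨ω, rfl⟩
    exact ⟨fun t => A ω t.1, (hG ω).symm⟩

theorem competitive_of_ext {d : X → X → ℝ} (hd : IsMetric d) {D : ℝ} (h0 : 0 < D)
    (hD : ∀ x y, d x y ≤ D) (s : Fin (n + 1) → X) {c : ℝ} (hc : 0 ≤ c)
    (h : Competitive (ext d D) (exts s) c) : Competitive d s c := by
  have hm := ext_metric hd h0 hD
  obtain ⟨Ω, _, P, _, A, hA, B, hB⟩ := h
  refine ⟨Ω, inferInstance, P, inferInstance, fun ω => sim (A ω), ?_, B, ?_⟩
  · intro τ
    exact (meas_dep A hA (fun a => sim a τ) (inter τ).tails fun a b hab => sim_dep a b τ hab).1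
  · intro σ
    obtain ⟨hm1, hm2⟩ := meas_dep A hA (fun a => cost (ext d D) a (exts s) (inter σ))
      (inter σ).tails fun a b hab => (conf_dep (ext d D) a b (exts s) _ hab).2
    have hint : Integrable (fun ω => cost (ext d D) (A ω) (exts s) (inter σ)) P := by
      obtain ⟨M, hM⟩ := hm2.bddAbove
      refine Integrable.of_bound hm1.aestronglyMeasurable M (ae_of_all _ fun ω => ?_)
      rw [Real.norm_of_nonneg (cost_nonneg hm _ _ _)]
      exact hM ⟨ω, rfl⟩
    have h1 : ∫ ω, cost d (sim (A ω)) s σ ∂P ≤
        ∫ ω, cost (ext d D) (A ω) (exts s) (inter σ) ∂P := by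
      refine integral_mono_of_nonneg (ae_of_all _ fun ω => cost_nonneg hd _ _ _) hint
        (ae_of_all _ fun ω => ?_)
      have h2 := (sim_cost hd h0 hD (A ω) s σ).2
      have h3 : 0 ≤ ∑ i : Fin (n + 1), ext d D (some (conf (sim (A ω)) s σ i))
          (conf (A ω) (exts s) (inter σ) (em (A ω) σ i.succ)) :=
        Finset.sum_nonneg fun i _ => hm.nonneg _ _
      show cost d (sim (A ω)) s σ ≤ cost (ext d D) (A ω) (exts s) (inter σ)
      linarith
    have h4 : opt (ext d D) (exts s) (inter σ) ≤ opt d s σ := by
      refine le_ciInf fun a => ?_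
      let b : List (Option X) → Fin (n + 2) := fun t => match t with
        | some r :: t' => (a (r :: t'.reduceOption)).succ
        | _ => 0
      have hb : ∀ τ : List X, conf b (exts s) (inter τ) =
          (Fin.cons none fun i => some (conf a s τ i) : Fin (n + 2) → Option X) ∧
          cost (ext d D) b (exts s) (inter τ) = cost d a s τ := by
        intro τ
        induction τ with
        | nil => exact ⟨rfl, rfl⟩
        | cons r τ ih =>
          obtain ⟨ih1, ih2⟩ := ih
          have hb1 : b (some r :: inter τ) = (a (r :: τ)).succ := by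
            show (a (r :: (inter τ).reduceOption)).succ = _
            rw [reduce_inter]
          have hb0 : b (none :: some r :: inter τ) = 0 := rfl
          have hc1 : conf b (exts s) (some r :: inter τ) =
              (Fin.cons none fun i => some (conf a s (r :: τ) i) : Fin (n + 2) → Option X) := by
            show Function.update (conf b (exts s) (inter τ)) (b (some r :: inter τ)) (some r) = _
            rw [hb1, ih1]
            funext i
            refine Fin.cases ?_ (fun i => ?_) i
            · rw [Function.update_of_ne (Fin.succ_ne_zero _).symm]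
              rfl
            · by_cases hi : i = a (r :: τ)
              · subst hi
                simp [conf]
              · rw [Function.update_of_ne (fun h => hi (Fin.succ_injective _ h))]
                simp [conf, hi]
          refine ⟨?_, ?_⟩
          · show Function.update (conf b (exts s) (some r :: inter τ))
              (b (none :: some r :: inter τ)) none = _
            rw [hb0, hc1]
            funext i
            refine Fin.cases ?_ (fun i => ?_) i
            · simp
            · rw [Function.update_of_ne (Fin.succ_ne_zero _)]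
          · show cost (ext d D) b (exts s) (inter τ) +
              ext d D (conf b (exts s) (inter τ) (b (some r :: inter τ))) (some r) +
              ext d D (conf b (exts s) (some r :: inter τ) (b (none :: some r :: inter τ))) none
                = cost d a s τ + d (conf a s τ (a (r :: τ))) r
            rw [hb0, hc1, ih2, hb1, ih1]
            simp [ext]
      rw [← (hb σ).2]
      exact opt_le hm b (exts s) (inter σ)
    have h5 := hB (inter σ)
    have h6 := mul_le_mul_of_nonneg_left h4 hc
    linarith

theorem rho_le {d : X → X → ℝ} (hd : IsMetric d) {D : ℝ} (h0 : 0 < D)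
    (hD : ∀ x y, d x y ≤ D) (s : Fin (n + 1) → X) : rho d s ≤ rho (ext d D) (exts s) :=
  le_iInf fun c => le_iInf fun h =>
    iInf_le_of_le c (iInf_le_of_le (competitive_of_ext hd h0 hD s c.2 h) le_rfl)

theorem Rb_succ (n : ℕ) : Rb (n + 1) ≤ Rb (n + 2) := by
  refine iSup_le fun X => iSup_le fun d => iSup_le fun hd => iSup_le fun hb =>
    iSup_le fun hX => iSup_le fun s => ?_
  obtain ⟨D, hD⟩ := hb
  obtain ⟨f⟩ := hX
  have h0 : 0 < max D 1 := lt_max_of_lt_right one_pos
  have hD' : ∀ x y, d x y ≤ max D 1 := fun x y => (hD x y).trans (le_max_left _ _)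
  refine (rho_le hd h0 hD' s).trans ?_
  refine le_iSup_of_le (Option X) (le_iSup_of_le (ext d (max D 1))
    (le_iSup_of_le (ext_metric hd h0 hD') (le_iSup_of_le ⟨max D 1, ext_le h0 hD'⟩
      (le_iSup_of_le ⟨?_⟩ (le_iSup_of_le (exts s) le_rfl)))))
  exact (finSuccEquiv (n + 2)).toEmbedding.trans f.optionMap

theorem Rb_mono {k l : ℕ} (hk : 1 ≤ k) (hkl : k ≤ l) : Rb k ≤ Rb l := by
  induction l, hkl using Nat.le_induction with
  | base => exact le_rfl
  | succ l hl ih =>
    obtain ⟨m, rfl⟩ : ∃ m, l = m + 1 := ⟨l - 1, by omega⟩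
    exact ih.trans (Rb_succ m)

theorem Rb_le_R (k : ℕ) : Rb k ≤ R k := by
  refine iSup_le fun X => iSup_le fun d => iSup_le fun hd => iSup_le fun _ =>
    iSup_le fun hX => iSup_le fun s => ?_
  exact le_iSup_of_le X (le_iSup_of_le d (le_iSup_of_le hd (le_iSup_of_le hX
    (le_iSup_of_le s le_rfl))))

theorem polylog_of_sparse (C : ℝ) (hC : 0 ≤ C) (m q : ℕ) (K : ℕ → ℕ) (hK2 : ∀ i, 2 ≤ K i)
    (hunb : ∀ N, ∃ i, N ≤ K i) (hK : ∀ i, K (i + 1) ≤ K i ^ q)
    (hR : ∀ i, R (K i) ≤ ENNReal.ofReal (C * Real.log (K i) ^ m)) :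
    ∃ C' : ℝ, ∀ k, 2 ≤ k → Rb k ≤ ENNReal.ofReal (C' * Real.log k ^ m) := by
  set M : ℝ := max q (Real.log (K 0) / Real.log 2) with hM
  have hl2 : 0 < Real.log 2 := Real.log_pos (by norm_num)
  refine ⟨C * M ^ m, fun k hk => ?_⟩
  have hk' : (2 : ℝ) ≤ k := by exact_mod_cast hk
  have hlk : Real.log 2 ≤ Real.log k := Real.log_le_log (by norm_num) hk'
  -- it is enough to find i with k ≤ K i and log K i ≤ M log k
  suffices h : ∃ i, k ≤ K i ∧ Real.log (K i) ≤ M * Real.log k by
    obtain ⟨i, hi1, hi2⟩ := h
    refine ((Rb_mono (by omega) hi1).trans ((Rb_le_R _).trans (hR i))).trans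
      (ENNReal.ofReal_le_ofReal ?_)
    rw [mul_assoc, ← mul_pow]
    have h2 : (0 : ℝ) ≤ Real.log (K i) := Real.log_natCast_nonneg _
    exact mul_le_mul_of_nonneg_left (pow_le_pow_left₀ h2 hi2 m) hC
  classical
  have hex := hunb k
  let i := Nat.find hex
  have hi : k ≤ K i := Nat.find_spec hex
  refine ⟨i, hi, ?_⟩
  rcases Nat.eq_zero_or_pos i with h0 | h0
  · rw [h0]
    have h1 : Real.log (K 0) = Real.log (K 0) / Real.log 2 * Real.log 2 := by
      field_simp
    have h2 : (0 : ℝ) ≤ Real.log (K 0) / Real.log 2 :=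
      div_nonneg (Real.log_natCast_nonneg _) hl2.le
    calc Real.log (K 0) = Real.log (K 0) / Real.log 2 * Real.log 2 := h1
      _ ≤ Real.log (K 0) / Real.log 2 * Real.log k := mul_le_mul_of_nonneg_left hlk h2
      _ ≤ M * Real.log k := mul_le_mul_of_nonneg_right (le_max_right _ _) (hl2.le.trans hlk)
  · obtain ⟨j, hj⟩ : ∃ j, i = j + 1 := ⟨i - 1, by omega⟩
    have hjk : K j < k := by
      have h1 : j < Nat.find hex := by
        show j < i
        omega
      exact not_le.1 (Nat.find_min hex h1)
    have h1 : K i ≤ k ^ q := by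
      rw [hj]
      exact (hK j).trans (Nat.pow_le_pow_left hjk.le q)
    have h2 : Real.log (K i) ≤ q * Real.log k := by
      have h3 : (0 : ℝ) < K i := by
        have := hK2 i
        exact_mod_cast (by omega : 0 < K i)
      have h4 : (K i : ℝ) ≤ (k : ℝ) ^ q := by exact_mod_cast h1
      calc Real.log (K i) ≤ Real.log ((k : ℝ) ^ q) := Real.log_le_log h3 h4
        _ = q * Real.log k := Real.log_pow _ _
    exact h2.trans (mul_le_mul_of_nonneg_right (le_max_left _ _) (hl2.le.trans hlk))

end Vale.Agent.P304
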