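import Vale.Agent.P304.Main

/-!
# P304: arbitrary metric spaces, the extra server walks away along a ray
-/

namespace Vale.Agent.P304

open MeasureTheory Equiv
open scoped ENNReal NNReal

variable {X : Type} {n k : ℕ}

/-- The sum metric on `X × ℝ`. -/
def dR (d : X → X → ℝ) (z w : X × ℝ) : ℝ := d z.1 w.1 + |z.2 - w.2|

theorem dR_metric {d : X → X → ℝ} (hd : IsMetric d) : IsMetric (dR d) := by
  refine ⟨?_, ?_, ?_⟩
  · rintro ⟨x, t⟩ ⟨y, u⟩
    simp only [dR]
    constructor
    · intro h
      have h1 := hd.nonneg x y
      have h2 := abs_nonneg (t - u)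
      have h3 : d x y = 0 := by linarith
      have h4 : |t - u| = 0 := by linarith
      rw [(hd.zero_iff x y).1 h3, sub_eq_zero.1 (abs_eq_zero.1 h4)]
    · intro h
      obtain ⟨rfl, rfl⟩ := Prod.mk.inj h
      simp [(hd.zero_iff x x).2 rfl]
  · rintro ⟨x, t⟩ ⟨y, u⟩
    simp only [dR]
    rw [hd.symm x y, abs_sub_comm]
  · rintro ⟨x, t⟩ ⟨y, u⟩ ⟨z, v⟩
    simp only [dR]
    linarith [hd.tri x y z, abs_sub_le t u v]

/-- The height of the extra point after the history. -/
noncomputable def ht (d : X → X → ℝ) (x0 : X) (T0 : ℝ) : List X → ℝ
  | [] => T0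
  | r :: h => max (ht d x0 T0 h) (d x0 r)

/-- Requests with the extra point in between. -/
noncomputable def interR (d : X → X → ℝ) (x0 : X) (T0 : ℝ) : List X → List (X × ℝ)
  | [] => []
  | r :: h => (x0, ht d x0 T0 (r :: h)) :: (r, 0) :: interR d x0 T0 h

/-- The matching. -/
noncomputable def emR (d : X → X → ℝ) (x0 : X) (T0 : ℝ) (a : List (X × ℝ) → Fin (n + 2)) :
    List X → Perm (Fin (n + 2))
  | [] => 1
  | r :: h => emR d x0 T0 a h *
      swap 0 ((emR d x0 T0 a h).symm (a (interR d x0 T0 (r :: h))))

/-- The simulated policy. -/
noncomputable def simR (d : X → X → ℝ) (x0 : X) (T0 : ℝ) (a : List (X × ℝ) → Fin (n + 2)) :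
    List X → Fin (n + 1)
  | [] => 0
  | r :: h =>
    pick (if a ((r, 0) :: interR d x0 T0 h) = emR d x0 T0 a h 0 then
      (emR d x0 T0 a h).symm (a (interR d x0 T0 (r :: h)))
      else (emR d x0 T0 a h).symm (a ((r, 0) :: interR d x0 T0 h)))

/-- The initial positions. -/
def extR (x0 : X) (T0 : ℝ) (s : Fin (n + 1) → X) : Fin (n + 2) → X × ℝ :=
  Fin.cons (x0, T0) fun i => (s i, 0)

theorem ht_mono {d : X → X → ℝ} (x0 : X) (T0 : ℝ) (r : X) (h : List X) :
    ht d x0 T0 h ≤ ht d x0 T0 (r :: h) := le_max_left _ _

theorem ht_ge {d : X → X → ℝ} (x0 : X) (T0 : ℝ) (h : List X) : T0 ≤ ht d x0 T0 h := by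
  induction h with
  | nil => exact le_refl _
  | cons r h ih => exact ih.trans (ht_mono x0 T0 r h)

theorem simR_cost {d : X → X → ℝ} (hd : IsMetric d) (x0 : X) {T0 : ℝ} (h0 : 0 < T0)
    (s : Fin (n + 1) → X) (hs : ∀ i, d x0 (s i) ≤ T0) (a : List (X × ℝ) → Fin (n + 2))
    (h : List X) :
    conf a (extR x0 T0 s) (interR d x0 T0 h) (emR d x0 T0 a h 0) = (x0, ht d x0 T0 h) ∧
      (∀ i, d x0 (conf (simR d x0 T0 a) s h i) ≤ ht d x0 T0 h) ∧
      (∀ j, dR d (x0, 0) (conf a (extR x0 T0 s) (interR d x0 T0 h) j) ≤ ht d x0 T0 h) ∧
      cost d (simR d x0 T0 a) s h + ∑ i : Fin (n + 1),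
        dR d (conf (simR d x0 T0 a) s h i, 0)
          (conf a (extR x0 T0 s) (interR d x0 T0 h) (emR d x0 T0 a h i.succ)) ≤
      cost (dR d) a (extR x0 T0 s) (interR d x0 T0 h) := by
  have hm := dR_metric hd
  have hxx : d x0 x0 = 0 := (hd.zero_iff _ _).2 rfl
  induction h with
  | nil =>
    refine ⟨by simp [conf, interR, emR, extR, ht], fun i => by simpa [conf, ht] using hs i,
      fun j => ?_, ?_⟩
    · refine Fin.cases ?_ (fun i => ?_) j
      · simp [conf, interR, extR, ht, dR, hxx, abs_of_pos h0]
      · simpa [conf, interR, extR, ht, dR] using hs i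
    · have h2 : ∀ x : X, d x x = 0 := fun x => (hd.zero_iff _ _).2 rfl
      simp [conf, interR, emR, extR, cost, dR, h2]
  | cons r h ih =>
    obtain ⟨ih1, ihb, ihc, ih2⟩ := ih
    set T := ht d x0 T0 h with hT
    set T' := ht d x0 T0 (r :: h) with hT'
    have hTT : T ≤ T' := ht_mono x0 T0 r h
    have hrT : d x0 r ≤ T' := le_max_right _ _
    have hTpos : 0 < T := lt_of_lt_of_le h0 (ht_ge x0 T0 h)
    have hT'pos : 0 < T' := lt_of_lt_of_le hTpos hTT
    set e := emR d x0 T0 a h with he
    set c := conf (simR d x0 T0 a) s h with hc
    set c' := conf a (extR x0 T0 s) (interR d x0 T0 h) with hc'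
    set j := a ((r, 0) :: interR d x0 T0 h) with hj
    set l := a (interR d x0 T0 (r :: h)) with hl
    have hc1 : conf a (extR x0 T0 s) (interR d x0 T0 (r :: h)) =
        Function.update (Function.update c' j (r, 0)) l (x0, T') := rfl
    have hcost : cost (dR d) a (extR x0 T0 s) (interR d x0 T0 (r :: h)) =
        cost (dR d) a (extR x0 T0 s) (interR d x0 T0 h) + dR d (c' j) (r, 0) +
          dR d (Function.update c' j (r, 0) l) (x0, T') := rfl
    have hem : emR d x0 T0 a (r :: h) = e * swap 0 (e.symm l) := rfl
    have hem0 : (e * swap 0 (e.symm l)) 0 = l := by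
      rw [Perm.mul_apply, swap_apply_left, Equiv.apply_symm_apply]
    -- bounds for the positions of the policy
    have hb1 : ∀ q, dR d (x0, 0) (Function.update c' j (r, 0) q) ≤ T' := by
      intro q
      by_cases hq : q = j
      · rw [hq, Function.update_self]
        simpa [dR] using hrT
      · rw [Function.update_of_ne hq]
        exact (ihc q).trans hTT
    have hb2 : ∀ q, dR d (x0, 0)
        (Function.update (Function.update c' j (r, 0)) l (x0, T') q) ≤ T' := by
      intro q
      by_cases hq : q = l
      · rw [hq, Function.update_self]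
        simp [dR, hxx, abs_of_pos hT'pos]
      · rw [Function.update_of_ne hq]
        exact hb1 q
    have hsb : ∀ i0 : Fin (n + 1), ∀ i, d x0 (Function.update c i0 r i) ≤ T' := by
      intro i0 i
      by_cases hi : i = i0
      · rw [hi, Function.update_self]
        exact hrT
      · rw [Function.update_of_ne hi]
        exact (ihb i).trans hTT
    have hcs : cost d (simR d x0 T0 a) s (r :: h) =
        cost d (simR d x0 T0 a) s h + d (c (simR d x0 T0 a (r :: h))) r := rfl
    have hcf : conf (simR d x0 T0 a) s (r :: h) =
        Function.update c (simR d x0 T0 a (r :: h)) r := rfl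
    rw [hc1, hcost, hem, hcs, hcf]
    refine ⟨by rw [hem0, Function.update_self], hsb _, hb2, ?_⟩
    have hrr : dR d (r, 0) (r, 0) = 0 := (hm.zero_iff _ _).2 rfl
    have hcr : ∀ i, d (c i) r ≤ T + d x0 r := by
      intro i
      have h1 := hd.tri (c i) x0 r
      have h2 := hd.symm (c i) x0
      have h3 := ihb i
      linarith
    by_cases hje : j = e 0
    · have hsim : simR d x0 T0 a (r :: h) = pick (e.symm l) := by
        simp only [simR]
        rw [if_pos hje]
      have hcj : dR d (c' j) (r, 0) = d x0 r + T := by
        rw [hje, ih1]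
        simp [dR, abs_of_pos hTpos]
      rw [hsim, hcj]
      by_cases hl0 : e.symm l = 0
      · have hle0 : l = e 0 := by rw [← hl0]; simp
        have hlj : l = j := by rw [hle0, hje]
        have hpick : pick (e.symm l) = 0 := by simp [pick, hl0]
        have hee : e * swap 0 (e.symm l) = e := by
          rw [hl0, swap_self]
          rfl
        rw [hpick, hee]
        have hval : ∀ i : Fin (n + 1),
            Function.update (Function.update c' j (r, 0)) l (x0, T') (e i.succ) =
              c' (e i.succ) := by
          intro i
          have h3 : e i.succ ≠ e 0 := fun h4 => (Fin.succ_ne_zero i) (e.injective h4)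
          rw [Function.update_of_ne (by rw [hle0]; exact h3),
            Function.update_of_ne (by rw [hje]; exact h3)]
        have hS := sum_change (fun i => dR d (c i, 0) (c' (e i.succ)))
          (fun i => dR d (Function.update c 0 r i, 0)
            (Function.update (Function.update c' j (r, 0)) l (x0, T') (e i.succ))) 0
          (fun i hi => by simp only [hval]; rw [Function.update_of_ne hi])
        rw [hS]
        simp only [hval, Function.update_self]
        have h5 := hm.nonneg (c 0, 0) (c' (e (Fin.succ 0)))
        have h6 := hm.tri (r, 0) (x0, 0) (c' (e (Fin.succ 0)))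
        have h7 := ihc (e (Fin.succ 0))
        have h8 : dR d (r, 0) (x0, 0) = d x0 r := by
          simp [dR, hd.symm r x0]
        have h9 : dR d (Function.update c' j (r, 0) l) (x0, T') = d x0 r + T' := by
          rw [hlj, Function.update_self]
          simp [dR, hd.symm r x0, abs_of_pos hT'pos]
        have h10 := hcr 0
        rw [h9]
        linarith
      · obtain ⟨i0, hi0⟩ := Fin.exists_succ_eq.2 hl0
        have hel : e i0.succ = l := by rw [hi0]; simp
        have hlne : l ≠ e 0 := by
          intro h4
          exact hl0 (by rw [h4]; simp)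
        rw [← hi0, pick_succ]
        have hval : ∀ i : Fin (n + 1), i ≠ i0 →
            Function.update (Function.update c' j (r, 0)) l (x0, T')
              ((e * swap 0 i0.succ) i.succ) = c' (e i.succ) := by
          intro i hi
          have h1 : (e * swap 0 i0.succ) i.succ = e i.succ := by
            rw [Perm.mul_apply, swap_apply_of_ne_of_ne (Fin.succ_ne_zero i)
              (fun h => hi (Fin.succ_injective _ h))]
          have h3 : e i.succ ≠ e 0 := fun h4 => (Fin.succ_ne_zero i) (e.injective h4)
          have h4 : e i.succ ≠ l := by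
            intro h4
            rw [← hel] at h4
            exact hi (Fin.succ_injective _ (e.injective h4))
          rw [h1, Function.update_of_ne h4, Function.update_of_ne (by rw [hje]; exact h3)]
        have hval0 : Function.update (Function.update c' j (r, 0)) l (x0, T')
            ((e * swap 0 i0.succ) i0.succ) = (r, 0) := by
          rw [Perm.mul_apply, swap_apply_right, Function.update_of_ne hlne.symm, ← hje,
            Function.update_self]
        have hS := sum_change (fun i => dR d (c i, 0) (c' (e i.succ)))
          (fun i => dR d (Function.update c i0 r i, 0)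
            (Function.update (Function.update c' j (r, 0)) l (x0, T')
              ((e * swap 0 i0.succ) i.succ))) i0
          (fun i hi => by simp only [hval i hi]; rw [Function.update_of_ne hi])
        rw [hS]
        simp only [hval0, Function.update_self]
        have h5 := hm.nonneg (c i0, 0) (c' (e i0.succ))
        have h7 := hcr i0
        have h8 := hm.nonneg (Function.update c' j (r, 0) l) (x0, T')
        linarith
    · have hj0 : e.symm j ≠ 0 := by
        intro h4
        exact hje (by rw [← h4]; simp)
      obtain ⟨i0, hi0⟩ := Fin.exists_succ_eq.2 hj0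
      have hej : e i0.succ = j := by rw [hi0]; simp
      have hsim : simR d x0 T0 a (r :: h) = i0 := by
        simp only [simR]
        rw [if_neg hje, ← hi0, pick_succ]
      rw [hsim]
      -- first the move to the request
      have hS := sum_change (fun i => dR d (c i, 0) (c' (e i.succ)))
        (fun i => dR d (Function.update c i0 r i, 0)
          (Function.update c' j (r, 0) (e i.succ))) i0
        (fun i hi => by
          have h4 : e i.succ ≠ j := by
            intro h4
            rw [← hej] at h4
            exact hi (Fin.succ_injective _ (e.injective h4))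
          rw [Function.update_of_ne hi, Function.update_of_ne h4])
      beta_reduce at hS
      rw [hej, Function.update_self, Function.update_self, hrr] at hS
      have h7 := hm.tri (c i0, 0) (c' j) (r, 0)
      have h8 : dR d (c i0, 0) (r, 0) = d (c i0) r := by simp [dR]
      -- then the move to the extra point
      have hH : ∑ i, dR d (Function.update c i0 r i, 0)
          (Function.update (Function.update c' j (r, 0)) l (x0, T')
            ((e * swap 0 (e.symm l)) i.succ)) ≤
          ∑ i, dR d (Function.update c i0 r i, 0) (Function.update c' j (r, 0) (e i.succ)) +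
            dR d (Function.update c' j (r, 0) l) (x0, T') := by
        by_cases hl0 : e.symm l = 0
        · have hle0 : l = e 0 := by rw [← hl0]; simp
          have hee : e * swap 0 (e.symm l) = e := by
            rw [hl0, swap_self]
            rfl
          rw [hee]
          have h1 : ∑ i, dR d (Function.update c i0 r i, 0)
              (Function.update (Function.update c' j (r, 0)) l (x0, T') (e i.succ)) =
              ∑ i, dR d (Function.update c i0 r i, 0)
                (Function.update c' j (r, 0) (e i.succ)) := by
            refine Finset.sum_congr rfl fun i _ => ?_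
            have h3 : e i.succ ≠ e 0 := fun h4 => (Fin.succ_ne_zero i) (e.injective h4)
            have h4 : e i.succ ≠ l := by
              rw [hle0]
              exact h3
            rw [Function.update_of_ne h4]
          rw [h1]
          linarith [hm.nonneg (Function.update c' j (r, 0) l) (x0, T')]
        · obtain ⟨i1, hi1⟩ := Fin.exists_succ_eq.2 hl0
          have hel : e i1.succ = l := by rw [hi1]; simp
          have hlne : l ≠ e 0 := by
            intro h4
            exact hl0 (by rw [h4]; simp)
          rw [← hi1]
          have hval : ∀ i : Fin (n + 1), i ≠ i1 →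
              Function.update (Function.update c' j (r, 0)) l (x0, T')
                ((e * swap 0 i1.succ) i.succ) = Function.update c' j (r, 0) (e i.succ) := by
            intro i hi
            have h1 : (e * swap 0 i1.succ) i.succ = e i.succ := by
              rw [Perm.mul_apply, swap_apply_of_ne_of_ne (Fin.succ_ne_zero i)
                (fun h => hi (Fin.succ_injective _ h))]
            have h4 : e i.succ ≠ l := by
              intro h4
              rw [← hel] at h4
              exact hi (Fin.succ_injective _ (e.injective h4))
            rw [h1, Function.update_of_ne h4]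
          have hval0 : Function.update (Function.update c' j (r, 0)) l (x0, T')
              ((e * swap 0 i1.succ) i1.succ) = (x0, T) := by
            rw [Perm.mul_apply, swap_apply_right, Function.update_of_ne hlne.symm,
              Function.update_of_ne (Ne.symm hje), ih1]
          have hS2 := sum_change (fun i => dR d (Function.update c i0 r i, 0)
              (Function.update c' j (r, 0) (e i.succ)))
            (fun i => dR d (Function.update c i0 r i, 0)
              (Function.update (Function.update c' j (r, 0)) l (x0, T')
                ((e * swap 0 i1.succ) i.succ))) i1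
            (fun i hi => by simp only [hval i hi])
          rw [hS2]
          simp only [hval0, hel]
          have h9 := hm.tri (Function.update c i0 r i1, 0) (Function.update c' j (r, 0) l) (x0, T)
          have h10 : dR d (Function.update c' j (r, 0) l) (x0, T) ≤
              dR d (Function.update c' j (r, 0) l) (x0, T') := by
            have h11 : (Function.update c' j (r, 0) l).2 ≤ T := by
              by_cases hlj : l = j
              · rw [hlj, Function.update_self]
                exact hTpos.le
              · rw [Function.update_of_ne hlj]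
                have h12 := ihc l
                simp only [dR] at h12
                have h13 := hd.nonneg x0 (c' l).1
                have h14 := neg_abs_le (0 - (c' l).2)
                linarith
            simp only [dR]
            rw [abs_of_nonpos (by linarith), abs_of_nonpos (by linarith)]
            linarith
          linarith
      linarith

theorem emR_dep (d : X → X → ℝ) (x0 : X) (T0 : ℝ) (a b : List (X × ℝ) → Fin (n + 2))
    (τ : List X) (h : ∀ t ∈ (interR d x0 T0 τ).tails, a t = b t) :
    emR d x0 T0 a τ = emR d x0 T0 b τ := by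
  induction τ with
  | nil => rfl
  | cons r τ ih =>
    have h1 : a (interR d x0 T0 (r :: τ)) = b (interR d x0 T0 (r :: τ)) :=
      h _ (by simp [interR])
    have h3 := ih fun t ht => h t (by
      simp only [interR, List.tails_cons]
      exact List.mem_cons_of_mem _ (List.mem_cons_of_mem _ ht))
    simp only [emR]
    rw [h1, h3]

theorem simR_dep (d : X → X → ℝ) (x0 : X) (T0 : ℝ) (a b : List (X × ℝ) → Fin (n + 2))
    (τ : List X) (h : ∀ t ∈ (interR d x0 T0 τ).tails, a t = b t) :
    simR d x0 T0 a τ = simR d x0 T0 b τ := by
  cases τ with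
  | nil => rfl
  | cons r τ =>
    have h1 : a (interR d x0 T0 (r :: τ)) = b (interR d x0 T0 (r :: τ)) :=
      h _ (by simp [interR])
    have h2 : a ((r, 0) :: interR d x0 T0 τ) = b ((r, 0) :: interR d x0 T0 τ) :=
      h _ (by simp [interR])
    have h3 := emR_dep d x0 T0 a b τ fun t ht => h t (by
      simp only [interR, List.tails_cons]
      exact List.mem_cons_of_mem _ (List.mem_cons_of_mem _ ht))
    simp only [simR]
    rw [h1, h2, h3]

theorem far_le {d : X → X → ℝ} (hd : IsMetric d) (x0 : X) {T0 : ℝ}
    (s : Fin k → X) (hs : ∀ i, d x0 (s i) ≤ T0) (a : List X → Fin k) (h : List X) :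
    (∀ i, d x0 (conf a s h i) ≤ T0 + cost d a s h) ∧ ht d x0 T0 h ≤ T0 + cost d a s h := by
  induction h with
  | nil => exact ⟨fun i => by simpa [conf, cost] using hs i, by simp [ht, cost]⟩
  | cons r h ih =>
    obtain ⟨ih1, ih2⟩ := ih
    have h1 := hd.tri x0 (conf a s h (a (r :: h))) r
    have h2 := ih1 (a (r :: h))
    have h3 := hd.nonneg (conf a s h (a (r :: h))) r
    refine ⟨fun i => ?_, ?_⟩
    · simp only [conf, cost]
      by_cases hi : i = a (r :: h)
      · rw [hi, Function.update_self]
        linarith
      · rw [Function.update_of_ne hi]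
        linarith [ih1 i]
    · simp only [ht, cost]
      exact max_le (by linarith) (by linarith)

theorem competitive_of_ray {d : X → X → ℝ} (hd : IsMetric d) (x0 : X) {T0 : ℝ} (h0 : 0 < T0)
    (s : Fin (n + 1) → X) (hs : ∀ i, d x0 (s i) ≤ T0) {c : ℝ} (hc : 0 ≤ c)
    (h : Competitive (dR d) (extR x0 T0 s) c) : Competitive d s (2 * c) := by
  classical
  have hm := dR_metric hd
  have hxx : d x0 x0 = 0 := (hd.zero_iff _ _).2 rfl
  obtain ⟨Ω, _, P, _, A, hA, B, hB⟩ := h
  refine ⟨Ω, inferInstance, P, inferInstance, fun ω => simR d x0 T0 (A ω), ?_, B, ?_⟩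
  · intro τ
    exact (meas_dep A hA (fun a => simR d x0 T0 a τ) (interR d x0 T0 τ).tails
      fun a b hab => simR_dep d x0 T0 a b τ hab).1
  · intro σ
    obtain ⟨hm1, hm2⟩ := meas_dep A hA (fun a => cost (dR d) a (extR x0 T0 s) (interR d x0 T0 σ))
      (interR d x0 T0 σ).tails fun a b hab => (conf_dep (dR d) a b (extR x0 T0 s) _ hab).2
    have hint : Integrable
        (fun ω => cost (dR d) (A ω) (extR x0 T0 s) (interR d x0 T0 σ)) P := by
      obtain ⟨M, hM⟩ := hm2.bddAbove
      refine Integrable.of_bound hm1.aestronglyMeasurable M (ae_of_all _ fun ω => ?_)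
      rw [Real.norm_of_nonneg (cost_nonneg hm _ _ _)]
      exact hM ⟨ω, rfl⟩
    have h1 : ∫ ω, cost d (simR d x0 T0 (A ω)) s σ ∂P ≤
        ∫ ω, cost (dR d) (A ω) (extR x0 T0 s) (interR d x0 T0 σ) ∂P := by
      refine integral_mono_of_nonneg (ae_of_all _ fun ω => cost_nonneg hd _ _ _) hint
        (ae_of_all _ fun ω => ?_)
      have h2 := (simR_cost hd x0 h0 s hs (A ω) σ).2.2.2
      have h3 : 0 ≤ ∑ i : Fin (n + 1), dR d (conf (simR d x0 T0 (A ω)) s σ i, 0)
          (conf (A ω) (extR x0 T0 s) (interR d x0 T0 σ) (emR d x0 T0 (A ω) σ i.succ)) :=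
        Finset.sum_nonneg fun i _ => hm.nonneg _ _
      show cost d (simR d x0 T0 (A ω)) s σ ≤
        cost (dR d) (A ω) (extR x0 T0 s) (interR d x0 T0 σ)
      linarith
    have h4 : opt (dR d) (extR x0 T0 s) (interR d x0 T0 σ) / 2 ≤ opt d s σ := by
      refine le_ciInf fun a => ?_
      let str : List (X × ℝ) → List X := fun t => (t.filter fun z => z.2 = 0).map Prod.fst
      have hstr : ∀ τ : List X, str (interR d x0 T0 τ) = τ := by
        intro τ
        induction τ with
        | nil => rfl
        | cons r τ ih =>
          have hT : ht d x0 T0 (r :: τ) ≠ 0 := (lt_of_lt_of_le h0 (ht_ge x0 T0 _)).ne'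
          simp only [str] at ih ⊢
          simp [interR, hT, ih]
      let b : List (X × ℝ) → Fin (n + 2) := fun t => match t with
        | z :: t' => if z.2 = 0 then (a (z.1 :: str t')).succ else 0
        | [] => 0
      have hb : ∀ τ : List X, conf b (extR x0 T0 s) (interR d x0 T0 τ) =
          (Fin.cons (x0, ht d x0 T0 τ) fun i => (conf a s τ i, 0) : Fin (n + 2) → X × ℝ) ∧
          cost (dR d) b (extR x0 T0 s) (interR d x0 T0 τ) =
            cost d a s τ + (ht d x0 T0 τ - T0) := by
        intro τ
        induction τ with
        | nil => exact ⟨rfl, by simp [interR, cost, ht]⟩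
        | cons r τ ih =>
          obtain ⟨ih1, ih2⟩ := ih
          have hT : ht d x0 T0 (r :: τ) ≠ 0 := (lt_of_lt_of_le h0 (ht_ge x0 T0 _)).ne'
          have hTT := ht_mono (d := d) x0 T0 r τ
          have hb1 : b ((r, 0) :: interR d x0 T0 τ) = (a (r :: τ)).succ := by
            show (if (0 : ℝ) = 0 then (a (r :: str (interR d x0 T0 τ))).succ else 0) = _
            rw [if_pos rfl, hstr]
          have hb0 : b ((x0, ht d x0 T0 (r :: τ)) :: (r, 0) :: interR d x0 T0 τ) = 0 := by
            show (if ht d x0 T0 (r :: τ) = 0 then _ else (0 : Fin (n + 2))) = 0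
            rw [if_neg hT]
          have hc1 : conf b (extR x0 T0 s) ((r, 0) :: interR d x0 T0 τ) =
              (Fin.cons (x0, ht d x0 T0 τ) fun i => (conf a s (r :: τ) i, 0) :
                Fin (n + 2) → X × ℝ) := by
            show Function.update (conf b (extR x0 T0 s) (interR d x0 T0 τ))
              (b ((r, 0) :: interR d x0 T0 τ)) (r, 0) = _
            rw [hb1, ih1]
            funext i
            refine Fin.cases ?_ (fun i => ?_) i
            · rw [Function.update_of_ne (Fin.succ_ne_zero _).symm]
              rfl
            · by_cases hi : i = a (r :: τ)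
              · subst hi
                simp [conf]
              · rw [Function.update_of_ne (fun h => hi (Fin.succ_injective _ h))]
                simp [conf, hi]
          refine ⟨?_, ?_⟩
          · show Function.update (conf b (extR x0 T0 s) ((r, 0) :: interR d x0 T0 τ))
              (b ((x0, ht d x0 T0 (r :: τ)) :: (r, 0) :: interR d x0 T0 τ))
              (x0, ht d x0 T0 (r :: τ)) = _
            rw [hb0, hc1]
            funext i
            refine Fin.cases ?_ (fun i => ?_) i
            · simp
            · rw [Function.update_of_ne (Fin.succ_ne_zero _)]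
              rfl
          · show cost (dR d) b (extR x0 T0 s) (interR d x0 T0 τ) +
              dR d (conf b (extR x0 T0 s) (interR d x0 T0 τ)
                (b ((r, 0) :: interR d x0 T0 τ))) (r, 0) +
              dR d (conf b (extR x0 T0 s) ((r, 0) :: interR d x0 T0 τ)
                (b ((x0, ht d x0 T0 (r :: τ)) :: (r, 0) :: interR d x0 T0 τ)))
                (x0, ht d x0 T0 (r :: τ))
                = cost d a s τ + d (conf a s τ (a (r :: τ))) r + (ht d x0 T0 (r :: τ) - T0)
            rw [hb0, hc1, ih2, hb1, ih1]
            simp only [Fin.cons_succ, Fin.cons_zero, dR, hxx, sub_self, abs_zero, add_zero,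
              zero_add]
            rw [abs_of_nonpos (by linarith)]
            ring
      have h5 := opt_le hm b (extR x0 T0 s) (interR d x0 T0 σ)
      rw [(hb σ).2] at h5
      have h6 := (far_le hd x0 s hs a σ).2
      linarith
    have h5 := hB (interR d x0 T0 σ)
    have h6 := mul_le_mul_of_nonneg_left h4 hc
    linarith

theorem R_succ (n : ℕ) : R (n + 1) ≤ 2 * R (n + 2) := by
  refine iSup_le fun X => iSup_le fun d => iSup_le fun hd => iSup_le fun hX =>
    iSup_le fun s => ?_
  set x0 := s 0
  set T0 : ℝ := 1 + ∑ i, d x0 (s i) with hT0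
  have hnn : ∀ i, 0 ≤ d x0 (s i) := fun i => hd.nonneg _ _
  have h0 : 0 < T0 := by
    have := Finset.sum_nonneg fun i (_ : i ∈ Finset.univ) => hnn i
    linarith
  have hs : ∀ i, d x0 (s i) ≤ T0 := by
    intro i
    have := Finset.single_le_sum (fun i (_ : i ∈ Finset.univ) => hnn i) (Finset.mem_univ i)
    linarith
  have h1 : rho d s ≤ 2 * rho (dR d) (extR x0 T0 s) := by
    rw [← ENNReal.div_le_iff' (by norm_num) (by norm_num)]
    refine le_iInf fun c => le_iInf fun h => ?_
    rw [ENNReal.div_le_iff' (by norm_num) (by norm_num)]
    have h2 : Competitive d s ((2 * c : ℝ≥0) : ℝ) := by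
      push_cast
      exact competitive_of_ray hd x0 h0 s hs c.2 h
    refine (iInf_le_of_le (2 * c) (iInf_le_of_le h2 le_rfl)).trans ?_
    push_cast
    exact le_rfl
  refine h1.trans (mul_le_mul_right ?_ 2)
  have : Nonempty X := ⟨x0⟩
  exact le_iSup_of_le (X × ℝ) (le_iSup_of_le (dR d) (le_iSup_of_le (dR_metric hd)
    (le_iSup_of_le ⟨Fin.valEmbedding.trans (Infinite.natEmbedding (X × ℝ))⟩
      (le_iSup_of_le (extR x0 T0 s) le_rfl))))

end Vale.Agent.P304
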