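import Vale.Agent.P304.Defs

/-!
# P304: adding a pinned server (simulation)
-/

namespace Vale.Agent.P304

open Equiv

variable {X : Type} {n : ℕ}

theorem IsMetric.nonneg {d : X → X → ℝ} (hd : IsMetric d) (x y : X) : 0 ≤ d x y := by
  have h1 := hd.tri x y x
  have h2 := (hd.zero_iff x x).2 rfl
  have h3 := hd.symm x y
  linarith

/-- The space with one extra point at distance `D` from all others. -/
def ext (d : X → X → ℝ) (D : ℝ) : Option X → Option X → ℝ
  | some x, some y => d x y
  | none, none => 0
  | some _, none => D
  | none, some _ => D

theorem ext_metric {d : X → X → ℝ} (hd : IsMetric d) {D : ℝ} (h0 : 0 < D)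
    (hD : ∀ x y, d x y ≤ D) : IsMetric (ext d D) := by
  refine ⟨?_, ?_, ?_⟩
  · rintro (_ | x) (_ | y)
    · simp [ext]
    · simp [ext, h0.ne']
    · simp [ext, h0.ne']
    · simp [ext, hd.zero_iff]
  · rintro (_ | x) (_ | y) <;> simp [ext]
    exact hd.symm x y
  · rintro (_ | x) (_ | y) (_ | z) <;> simp only [ext]
    · linarith
    · linarith
    · linarith
    · linarith [hd.nonneg y z]
    · linarith
    · linarith [hD x z]
    · linarith [hd.nonneg x y]
    · exact hd.tri x y z

theorem ext_le {d : X → X → ℝ} {D : ℝ} (h0 : 0 < D) (hD : ∀ x y, d x y ≤ D) (x y : Option X) :
    ext d D x y ≤ D := by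
  rcases x with _ | x <;> rcases y with _ | y <;> simp only [ext]
  · exact h0.le
  · exact le_refl _
  · exact le_refl _
  · exact hD x y

/-- Interleaving the extra point. -/
def inter : List X → List (Option X)
  | [] => []
  | r :: h => none :: some r :: inter h

theorem reduce_inter (h : List X) : (inter h).reduceOption = h := by
  induction h with
  | nil => rfl
  | cons r h ih => simp [inter, ih]

/-- The matching of simulated servers with the real ones (`0` = the pinned one). -/
def em (a : List (Option X) → Fin (n + 2)) : List X → Perm (Fin (n + 2))
  | [] => 1
  | r :: h =>
    if a (some r :: inter h) = em a h 0 then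
      em a h * swap 0 ((em a h).symm (a (none :: some r :: inter h)))
    else em a h

/-- The server of the simulated policy attached to a position of the matching. -/
def pick (x : Fin (n + 2)) : Fin (n + 1) := if h : x = 0 then 0 else x.pred h

theorem pick_succ (i : Fin (n + 1)) : pick i.succ = i := by
  simp [pick]

/-- The simulated policy. -/
def sim (a : List (Option X) → Fin (n + 2)) : List X → Fin (n + 1)
  | [] => 0
  | r :: h =>
    pick (if a (some r :: inter h) = em a h 0 then
      (em a h).symm (a (none :: some r :: inter h)) else (em a h).symm (a (some r :: inter h)))

/-- The initial positions with the extra server. -/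
def exts (s : Fin (n + 1) → X) : Fin (n + 2) → Option X := Fin.cons none fun i => some (s i)

theorem sum_change {ι : Type} [Fintype ι] [DecidableEq ι] (F F' : ι → ℝ) (i0 : ι)
    (h : ∀ i, i ≠ i0 → F' i = F i) : ∑ i, F' i = ∑ i, F i - F i0 + F' i0 := by
  rw [← Finset.add_sum_erase _ _ (Finset.mem_univ i0),
    ← Finset.add_sum_erase _ F (Finset.mem_univ i0)]
  have h1 : ∑ i ∈ Finset.univ.erase i0, F' i = ∑ i ∈ Finset.univ.erase i0, F i :=
    Finset.sum_congr rfl fun i hi => h i (Finset.ne_of_mem_erase hi)
  rw [h1]
  ring

theorem sim_cost {d : X → X → ℝ} (hd : IsMetric d) {D : ℝ} (h0 : 0 < D)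
    (hD : ∀ x y, d x y ≤ D) (a : List (Option X) → Fin (n + 2)) (s : Fin (n + 1) → X)
    (h : List X) :
    conf a (exts s) (inter h) (em a h 0) = none ∧
      cost d (sim a) s h + ∑ i : Fin (n + 1),
        ext d D (some (conf (sim a) s h i)) (conf a (exts s) (inter h) (em a h i.succ)) ≤
      cost (ext d D) a (exts s) (inter h) := by
  have hm := ext_metric hd h0 hD
  have hle := ext_le (d := d) h0 hD
  induction h with
  | nil =>
    refine ⟨by simp [conf, inter, em, exts], ?_⟩
    have h2 : ∀ x : X, ext d D (some x) (some x) = 0 := fun x => (hm.zero_iff _ _).2 rfl
    simp [conf, inter, em, exts, cost, h2]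
  | cons r h ih =>
    obtain ⟨ih1, ih2⟩ := ih
    set e := em a h with he
    set c := conf (sim a) s h with hc
    set c' := conf a (exts s) (inter h) with hc'
    set j := a (some r :: inter h) with hj
    set l := a (none :: some r :: inter h) with hl
    have hc1 : conf a (exts s) (inter (r :: h)) =
        Function.update (Function.update c' j (some r)) l none := rfl
    have hcost : cost (ext d D) a (exts s) (inter (r :: h)) =
        cost (ext d D) a (exts s) (inter h) + ext d D (c' j) (some r) +
          ext d D (Function.update c' j (some r) l) none := rfl
    -- the update of one coordinate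
    have hsum : ∀ (f : Fin (n + 1) → X) (g : Fin (n + 2) → Option X) (e' : Perm (Fin (n + 2))),
        ∑ i, ext d D (some (f i)) (Function.update g l none (e' i.succ)) ≤
          ∑ i, ext d D (some (f i)) (g (e' i.succ)) + ext d D (g l) none := by
      intro f g e'
      by_cases hx : ∃ i : Fin (n + 1), e' i.succ = l
      · obtain ⟨i0, hi0⟩ := hx
        rw [← Finset.add_sum_erase _ _ (Finset.mem_univ i0),
          ← Finset.add_sum_erase _ (fun i => ext d D (some (f i)) (g (e' i.succ)))
            (Finset.mem_univ i0)]
        have h1 : ∑ i ∈ Finset.univ.erase i0,
            ext d D (some (f i)) (Function.update g l none (e' i.succ)) =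
            ∑ i ∈ Finset.univ.erase i0, ext d D (some (f i)) (g (e' i.succ)) := by
          refine Finset.sum_congr rfl fun i hi => ?_
          have h3 : e' i.succ ≠ l := by
            intro h4
            rw [← hi0] at h4
            exact (Finset.ne_of_mem_erase hi) (Fin.succ_injective _ (e'.injective h4))
          rw [Function.update_of_ne h3]
        rw [h1, hi0, Function.update_self]
        have h5 := hm.tri (some (f i0)) (g l) none
        linarith
      · push Not at hx
        have h1 : ∑ i, ext d D (some (f i)) (Function.update g l none (e' i.succ)) =
            ∑ i, ext d D (some (f i)) (g (e' i.succ)) :=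
          Finset.sum_congr rfl fun i _ => by rw [Function.update_of_ne (hx i)]
        rw [h1]
        linarith [hm.nonneg (g l) none]
    by_cases hje : j = e 0
    · -- the pinned server serves the request
      have hem : em a (r :: h) = e * swap 0 (e.symm l) := by
        simp only [em]
        rw [if_pos hje]
      have hsim : sim a (r :: h) = pick (e.symm l) := by
        simp only [sim]
        rw [if_pos hje]
      have hcj : c' j = none := by rw [hje]; exact ih1
      have hcs : cost d (sim a) s (r :: h) = cost d (sim a) s h + d (c (pick (e.symm l))) r := by
        simp only [cost]
        rw [hsim]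
      have hcf : conf (sim a) s (r :: h) = Function.update c (pick (e.symm l)) r := by
        simp only [conf]
        rw [hsim]
      rw [hc1, hcost, hem, hcs, hcf, hcj]
      have hD1 : ext d D none (some r) = D := rfl
      rw [hD1]
      by_cases hl0 : e.symm l = 0
      · have hle0 : l = e 0 := by rw [← hl0]; simp
        have hlj : l = j := by rw [hle0, hje]
        have hpick : pick (e.symm l) = 0 := by simp [pick, hl0]
        have hee : e * swap 0 (e.symm l) = e := by
          rw [hl0, swap_self]
          rfl
        rw [hpick, hee]
        refine ⟨by rw [← hle0, Function.update_self], ?_⟩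
        have hval : ∀ i : Fin (n + 1),
            Function.update (Function.update c' j (some r)) l none (e i.succ) = c' (e i.succ) := by
          intro i
          have h3 : e i.succ ≠ e 0 := fun h4 => (Fin.succ_ne_zero i) (e.injective h4)
          rw [Function.update_of_ne (by rw [hle0]; exact h3),
            Function.update_of_ne (by rw [hje]; exact h3)]
        have hS := sum_change (fun i => ext d D (some (c i)) (c' (e i.succ)))
          (fun i => ext d D (some (Function.update c 0 r i))
            (Function.update (Function.update c' j (some r)) l none (e i.succ))) 0
          (fun i hi => by simp only [hval]; rw [Function.update_of_ne hi])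
        rw [hS]
        have h5 := hm.nonneg (some (c 0)) (c' (e (Fin.succ 0)))
        have h6 := hle (some (Function.update c 0 r 0))
          (Function.update (Function.update c' j (some r)) l none (e (Fin.succ 0)))
        have h7 := hD (c 0) r
        have h8 : ext d D (Function.update c' j (some r) l) none = D := by
          rw [hlj, Function.update_self]
          rfl
        rw [h8]
        linarith
      · obtain ⟨i0, hi0⟩ := Fin.exists_succ_eq.2 hl0
        have hel : e i0.succ = l := by rw [hi0]; simp
        have hlne : l ≠ e 0 := by
          intro h4
          exact hl0 (by rw [h4]; simp)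
        rw [← hi0, pick_succ]
        have hval : ∀ i : Fin (n + 1), i ≠ i0 →
            Function.update (Function.update c' j (some r)) l none
              ((e * swap 0 i0.succ) i.succ) = c' (e i.succ) := by
          intro i hi
          have h1 : (e * swap 0 i0.succ) i.succ = e i.succ := by
            rw [Perm.mul_apply, swap_apply_of_ne_of_ne (Fin.succ_ne_zero i)
              (fun h => hi (Fin.succ_injective _ h))]
          have h3 : e i.succ ≠ e 0 := fun h4 => (Fin.succ_ne_zero i) (e.injective h4)
          have h4 : e i.succ ≠ l := by
            intro h4
            rw [← hel] at h4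
            exact hi (Fin.succ_injective _ (e.injective h4))
          rw [h1, Function.update_of_ne h4, Function.update_of_ne (by rw [hje]; exact h3)]
        have hval0 : Function.update (Function.update c' j (some r)) l none
            ((e * swap 0 i0.succ) i0.succ) = some r := by
          rw [Perm.mul_apply, swap_apply_right, Function.update_of_ne hlne.symm, ← hje,
            Function.update_self]
        refine ⟨by rw [Perm.mul_apply, swap_apply_left, hel, Function.update_self], ?_⟩
        have hS := sum_change (fun i => ext d D (some (c i)) (c' (e i.succ)))
          (fun i => ext d D (some (Function.update c i0 r i))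
            (Function.update (Function.update c' j (some r)) l none
              ((e * swap 0 i0.succ) i.succ))) i0
          (fun i hi => by simp only [hval i hi]; rw [Function.update_of_ne hi])
        rw [hS]
        simp only [hval0, Function.update_self]
        have h5 := hm.nonneg (some (c i0)) (c' (e i0.succ))
        have h6 := (hm.zero_iff (some r) (some r)).2 rfl
        have h7 := hD (c i0) r
        have h8 := hm.nonneg (Function.update c' j (some r) l) none
        linarith
    · have hem : em a (r :: h) = e := by
        simp only [em]
        rw [if_neg hje]
      have hsim : sim a (r :: h) = pick (e.symm j) := by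
        simp only [sim]
        rw [if_neg hje]
      have hj0 : e.symm j ≠ 0 := by
        intro h4
        exact hje (by rw [← h4]; simp)
      obtain ⟨i0, hi0⟩ := Fin.exists_succ_eq.2 hj0
      have hej : e i0.succ = j := by rw [hi0]; simp
      have hsim' : sim a (r :: h) = i0 := by rw [hsim, ← hi0, pick_succ]
      have hcs : cost d (sim a) s (r :: h) = cost d (sim a) s h + d (c i0) r := by
        simp only [cost]
        rw [hsim']
      have hcf : conf (sim a) s (r :: h) = Function.update c i0 r := by
        simp only [conf]
        rw [hsim']
      rw [hc1, hcost, hem, hcs, hcf]
      refine ⟨?_, ?_⟩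
      · by_cases hl0 : e 0 = l
        · rw [hl0, Function.update_self]
        · rw [Function.update_of_ne hl0, Function.update_of_ne (Ne.symm hje)]
          exact ih1
      · have h1 := hsum (Function.update c i0 r) (Function.update c' j (some r)) e
        have hS := sum_change (fun i => ext d D (some (c i)) (c' (e i.succ)))
          (fun i => ext d D (some (Function.update c i0 r i))
            (Function.update c' j (some r) (e i.succ))) i0
          (fun i hi => by
            have h4 : e i.succ ≠ j := by
              intro h4
              rw [← hej] at h4
              exact hi (Fin.succ_injective _ (e.injective h4))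
            rw [Function.update_of_ne hi, Function.update_of_ne h4])
        beta_reduce at hS
        rw [hej, Function.update_self, Function.update_self] at hS
        have h6 := (hm.zero_iff (some r) (some r)).2 rfl
        have h7 := hm.tri (some (c i0)) (c' j) (some r)
        have h8 : ext d D (some (c i0)) (some r) = d (c i0) r := rfl
        linarith

end Vale.Agent.P304
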